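import Vale.Agent.P154.Near.Tree

/-!
# P154: data of the end-game certificate for three colours, four children and eigenvalue -1/2
-/

namespace Vale.Agent.P154

namespace PExp

/-- monomials of the first group -/
def mu (i j l : ℕ) : PExp := .mul (.pow (.v 6) i) (.mul (.pow (.v 7) j) (.pow (.v 8) l))
/-- monomials of the second group -/
def mv (i j l : ℕ) : PExp := .mul (.pow (.v 9) i) (.mul (.pow (.v 10) j) (.pow (.v 11) l))

/-- row 0 -/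
def k1r0 : PExp :=
  .add (.mul (.k (Int.ofNat 1536000)) (mv 0 2 4))
  (.add (.mul (.k (Int.ofNat 482688)) (mv 0 4 2))
  (.add (.mul (.k (Int.ofNat 2298240)) (mv 0 6 0))
  (.add (.mul (.k (Int.ofNat 2382912)) (mv 1 4 1))
  (.add (.mul (.k (Int.ofNat 512000)) (mv 2 0 4))
  (.add (.mul (.k (Int.ofNat 321792)) (mv 2 2 2))
  (.add (.mul (.k (Int.ofNat 2018304)) (mv 2 4 0))
  (.add (.mul (.k (Int.ofNat 529536)) (mv 3 2 1))
  (.add (.mul (.k (Int.ofNat 53632)) (mv 4 0 2))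
  (.add (.mul (.k (Int.ofNat 828288)) (mv 4 2 0))
  (.add (.mul (.k (Int.negSucc 88255)) (mv 5 0 1))
  (.mul (.k (Int.ofNat 81664)) (mv 6 0 0))))))))))))

/-- row 1 -/
def k1r1 : PExp :=
  .add (.mul (.k (Int.ofNat 3072000)) (mv 0 1 5))
  (.add (.mul (.k (Int.negSucc 1244159)) (mv 0 3 3))
  (.add (.mul (.k (Int.ofNat 2489184)) (mv 0 5 1))
  (.add (.mul (.k (Int.negSucc 3071999)) (mv 1 1 4))
  (.add (.mul (.k (Int.ofNat 1429632)) (mv 1 3 2))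
  (.add (.mul (.k (Int.negSucc 14221439)) (mv 1 5 0))
  (.add (.mul (.k (Int.negSucc 414719)) (mv 2 1 3))
  (.add (.mul (.k (Int.negSucc 23615)) (mv 2 3 1))
  (.add (.mul (.k (Int.negSucc 263807)) (mv 3 1 2))
  (.add (.mul (.k (Int.negSucc 7477631)) (mv 3 3 0))
  (.add (.mul (.k (Int.ofNat 463584)) (mv 4 1 1))
  (.mul (.k (Int.negSucc 912383)) (mv 5 1 0))))))))))))

/-- row 2 -/
def k1r2 : PExp :=
  .add (.mul (.k (Int.ofNat 1536000)) (mv 0 0 6))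
  (.add (.mul (.k (Int.negSucc 1817855)) (mv 0 2 4))
  (.add (.mul (.k (Int.ofNat 5108832)) (mv 0 4 2))
  (.add (.mul (.k (Int.ofNat 6548040)) (mv 0 6 0))
  (.add (.mul (.k (Int.negSucc 1535999)) (mv 1 0 5))
  (.add (.mul (.k (Int.ofNat 2257920)) (mv 1 2 3))
  (.add (.mul (.k (Int.negSucc 20521295)) (mv 1 4 1))
  (.add (.mul (.k (Int.ofNat 576768)) (mv 2 0 4))
  (.add (.mul (.k (Int.ofNat 2710080)) (mv 2 2 2))
  (.add (.mul (.k (Int.ofNat 8128296)) (mv 2 4 0))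
  (.add (.mul (.k (Int.ofNat 449280)) (mv 3 0 3))
  (.add (.mul (.k (Int.negSucc 3900383)) (mv 3 2 1))
  (.add (.mul (.k (Int.negSucc 572831)) (mv 4 0 2))
  (.add (.mul (.k (Int.negSucc 1876391)) (mv 4 2 0))
  (.add (.mul (.k (Int.negSucc 1108943)) (mv 5 0 1))
  (.mul (.k (Int.ofNat 1621560)) (mv 6 0 0))))))))))))))))

/-- row 3 -/
def k1r3 : PExp :=
  .add (.mul (.k (Int.negSucc 1244159)) (mv 0 1 5))
  (.add (.mul (.k (Int.ofNat 18975168)) (mv 0 3 3))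
  (.add (.mul (.k (Int.negSucc 37634543)) (mv 0 5 1))
  (.add (.mul (.k (Int.ofNat 3150720)) (mv 1 1 4))
  (.add (.mul (.k (Int.negSucc 45571679)) (mv 1 3 2))
  (.add (.mul (.k (Int.ofNat 8132400)) (mv 1 5 0))
  (.add (.mul (.k (Int.ofNat 880704)) (mv 2 1 3))
  (.add (.mul (.k (Int.negSucc 1515455)) (mv 2 3 1))
  (.add (.mul (.k (Int.ofNat 794592)) (mv 3 1 2))
  (.add (.mul (.k (Int.ofNat 55027296)) (mv 3 3 0))
  (.add (.mul (.k (Int.ofNat 7013808)) (mv 4 1 1))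
  (.mul (.k (Int.negSucc 6293519)) (mv 5 1 0))))))))))))

/-- row 4 -/
def k1r4 : PExp :=
  .add (.mul (.k (Int.ofNat 482688)) (mv 0 0 6))
  (.add (.mul (.k (Int.ofNat 5108832)) (mv 0 2 4))
  (.add (.mul (.k (Int.ofNat 6757344)) (mv 0 4 2))
  (.add (.mul (.k (Int.ofNat 17389080)) (mv 0 6 0))
  (.add (.mul (.k (Int.negSucc 118079)) (mv 1 0 5))
  (.add (.mul (.k (Int.negSucc 6753023)) (mv 1 2 3))
  (.add (.mul (.k (Int.ofNat 26747172)) (mv 1 4 1))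
  (.add (.mul (.k (Int.negSucc 1037087)) (mv 2 0 4))
  (.add (.mul (.k (Int.ofNat 32629392)) (mv 2 2 2))
  (.add (.mul (.k (Int.negSucc 31092335)) (mv 2 4 0))
  (.add (.mul (.k (Int.negSucc 1384127)) (mv 3 0 3))
  (.add (.mul (.k (Int.ofNat 3666600)) (mv 3 2 1))
  (.add (.mul (.k (Int.ofNat 5090832)) (mv 4 0 2))
  (.add (.mul (.k (Int.ofNat 18230616)) (mv 4 2 0))
  (.add (.mul (.k (Int.negSucc 851147)) (mv 5 0 1))
  (.mul (.k (Int.ofNat 242496)) (mv 6 0 0))))))))))))))))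

/-- row 5 -/
def k1r5 : PExp :=
  .add (.mul (.k (Int.ofNat 2489184)) (mv 0 1 5))
  (.add (.mul (.k (Int.negSucc 37634543)) (mv 0 3 3))
  (.add (.mul (.k (Int.ofNat 27924588)) (mv 0 5 1))
  (.add (.mul (.k (Int.negSucc 18181151)) (mv 1 1 4))
  (.add (.mul (.k (Int.ofNat 1908360)) (mv 1 3 2))
  (.add (.mul (.k (Int.ofNat 1751058)) (mv 1 5 0))
  (.add (.mul (.k (Int.ofNat 18538416)) (mv 2 1 3))
  (.add (.mul (.k (Int.negSucc 33470495)) (mv 2 3 1))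
  (.add (.mul (.k (Int.negSucc 722951)) (mv 3 1 2))
  (.add (.mul (.k (Int.negSucc 1626803)) (mv 3 3 0))
  (.add (.mul (.k (Int.ofNat 4709556)) (mv 4 1 1))
  (.mul (.k (Int.ofNat 104706)) (mv 5 1 0))))))))))))

/-- row 6 -/
def k1r6 : PExp :=
  .add (.mul (.k (Int.ofNat 2298240)) (mv 0 0 6))
  (.add (.mul (.k (Int.ofNat 6548040)) (mv 0 2 4))
  (.add (.mul (.k (Int.ofNat 17389080)) (mv 0 4 2))
  (.add (.mul (.k (Int.ofNat 4437423)) (mv 0 6 0))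
  (.add (.mul (.k (Int.negSucc 4856975)) (mv 1 0 5))
  (.add (.mul (.k (Int.ofNat 7882272)) (mv 1 2 3))
  (.add (.mul (.k (Int.ofNat 44655624)) (mv 1 4 1))
  (.add (.mul (.k (Int.ofNat 6979608)) (mv 2 0 4))
  (.add (.mul (.k (Int.ofNat 13388976)) (mv 2 2 2))
  (.add (.mul (.k (Int.ofNat 138447063)) (mv 2 4 0))
  (.add (.mul (.k (Int.negSucc 964655)) (mv 3 0 3))
  (.add (.mul (.k (Int.ofNat 9707688)) (mv 3 2 1))
  (.add (.mul (.k (Int.ofNat 2590920)) (mv 4 0 2))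
  (.add (.mul (.k (Int.negSucc 43989398)) (mv 4 2 0))
  (.add (.mul (.k (Int.negSucc 1657151)) (mv 5 0 1))
  (.mul (.k (Int.ofNat 1682289)) (mv 6 0 0))))))))))))))))

/-- row 7 -/
def k1r7 : PExp :=
  .add (.mul (.k (Int.negSucc 1535999)) (mv 0 2 4))
  (.add (.mul (.k (Int.negSucc 118079)) (mv 0 4 2))
  (.add (.mul (.k (Int.negSucc 4856975)) (mv 0 6 0))
  (.add (.mul (.k (Int.ofNat 1024000)) (mv 1 0 5))
  (.add (.mul (.k (Int.negSucc 414719)) (mv 1 2 3))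
  (.add (.mul (.k (Int.negSucc 11807)) (mv 1 4 1))
  (.add (.mul (.k (Int.ofNat 512000)) (mv 2 0 4))
  (.add (.mul (.k (Int.ofNat 555264)) (mv 2 2 2))
  (.add (.mul (.k (Int.negSucc 3121487)) (mv 2 4 0))
  (.add (.mul (.k (Int.negSucc 138239)) (mv 3 0 3))
  (.add (.mul (.k (Int.ofNat 927168)) (mv 3 2 1))
  (.add (.mul (.k (Int.negSucc 48575)) (mv 4 0 2))
  (.add (.mul (.k (Int.ofNat 205776)) (mv 4 2 0))
  (.add (.mul (.k (Int.ofNat 61024)) (mv 5 0 1))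
  (.mul (.k (Int.ofNat 235536)) (mv 6 0 0)))))))))))))))

/-- row 8 -/
def k1r8 : PExp :=
  .add (.mul (.k (Int.negSucc 3071999)) (mv 0 1 5))
  (.add (.mul (.k (Int.ofNat 3150720)) (mv 0 3 3))
  (.add (.mul (.k (Int.negSucc 18181151)) (mv 0 5 1))
  (.add (.mul (.k (Int.negSucc 2365439)) (mv 1 1 4))
  (.add (.mul (.k (Int.ofNat 9568512)) (mv 1 3 2))
  (.add (.mul (.k (Int.negSucc 45467135)) (mv 1 5 0))
  (.add (.mul (.k (Int.ofNat 1050240)) (mv 2 1 3))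
  (.add (.mul (.k (Int.negSucc 21521087)) (mv 2 3 1))
  (.add (.mul (.k (Int.ofNat 1372416)) (mv 3 1 2))
  (.add (.mul (.k (Int.negSucc 14367743)) (mv 3 3 0))
  (.add (.mul (.k (Int.negSucc 975647)) (mv 4 1 1))
  (.mul (.k (Int.ofNat 262656)) (mv 5 1 0))))))))))))

/-- row 9 -/
def k1r9 : PExp :=
  .add (.mul (.k (Int.ofNat 2257920)) (mv 0 2 4))
  (.add (.mul (.k (Int.negSucc 6753023)) (mv 0 4 2))
  (.add (.mul (.k (Int.ofNat 7882272)) (mv 0 6 0))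
  (.add (.mul (.k (Int.negSucc 414719)) (mv 1 0 5))
  (.add (.mul (.k (Int.ofNat 8286912)) (mv 1 2 3))
  (.add (.mul (.k (Int.negSucc 27719711)) (mv 1 4 1))
  (.add (.mul (.k (Int.negSucc 297599)) (mv 2 0 4))
  (.add (.mul (.k (Int.negSucc 13289183)) (mv 2 2 2))
  (.add (.mul (.k (Int.ofNat 121457664)) (mv 2 4 0))
  (.add (.mul (.k (Int.ofNat 1285440)) (mv 3 0 3))
  (.add (.mul (.k (Int.negSucc 5778719)) (mv 3 2 1))
  (.add (.mul (.k (Int.ofNat 1648992)) (mv 4 0 2))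
  (.add (.mul (.k (Int.negSucc 15295967)) (mv 4 2 0))
  (.add (.mul (.k (Int.ofNat 41280)) (mv 5 0 1))
  (.mul (.k (Int.ofNat 907584)) (mv 6 0 0)))))))))))))))

/-- row 10 -/
def k1r10 : PExp :=
  .add (.mul (.k (Int.ofNat 1429632)) (mv 0 1 5))
  (.add (.mul (.k (Int.negSucc 45571679)) (mv 0 3 3))
  (.add (.mul (.k (Int.ofNat 1908360)) (mv 0 5 1))
  (.add (.mul (.k (Int.ofNat 9568512)) (mv 1 1 4))
  (.add (.mul (.k (Int.negSucc 210563711)) (mv 1 3 2))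
  (.add (.mul (.k (Int.ofNat 137104488)) (mv 1 5 0))
  (.add (.mul (.k (Int.negSucc 15190559)) (mv 2 1 3))
  (.add (.mul (.k (Int.ofNat 187421904)) (mv 2 3 1))
  (.add (.mul (.k (Int.ofNat 18535680)) (mv 3 1 2))
  (.add (.mul (.k (Int.ofNat 28630800)) (mv 3 3 0))
  (.add (.mul (.k (Int.negSucc 20471255)) (mv 4 1 1))
  (.mul (.k (Int.negSucc 5690231)) (mv 5 1 0))))))))))))

/-- row 11 -/
def k1r11 : PExp :=
  .add (.mul (.k (Int.ofNat 2382912)) (mv 0 0 6))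
  (.add (.mul (.k (Int.negSucc 20521295)) (mv 0 2 4))
  (.add (.mul (.k (Int.ofNat 26747172)) (mv 0 4 2))
  (.add (.mul (.k (Int.ofNat 44655624)) (mv 0 6 0))
  (.add (.mul (.k (Int.negSucc 11807)) (mv 1 0 5))
  (.add (.mul (.k (Int.negSucc 27719711)) (mv 1 2 3))
  (.add (.mul (.k (Int.ofNat 310154508)) (mv 1 4 1))
  (.add (.mul (.k (Int.ofNat 3920112)) (mv 2 0 4))
  (.add (.mul (.k (Int.ofNat 108265248)) (mv 2 2 2))
  (.add (.mul (.k (Int.negSucc 60950717)) (mv 2 4 0))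
  (.add (.mul (.k (Int.negSucc 710495)) (mv 3 0 3))
  (.add (.mul (.k (Int.negSucc 97036271)) (mv 3 2 1))
  (.add (.mul (.k (Int.negSucc 7804547)) (mv 4 0 2))
  (.add (.mul (.k (Int.ofNat 69868548)) (mv 4 2 0))
  (.add (.mul (.k (Int.ofNat 4111524)) (mv 5 0 1))
  (.mul (.k (Int.negSucc 3163949)) (mv 6 0 0))))))))))))))))

/-- row 12 -/
def k1r12 : PExp :=
  .add (.mul (.k (Int.negSucc 14221439)) (mv 0 1 5))
  (.add (.mul (.k (Int.ofNat 8132400)) (mv 0 3 3))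
  (.add (.mul (.k (Int.ofNat 1751058)) (mv 0 5 1))
  (.add (.mul (.k (Int.negSucc 45467135)) (mv 1 1 4))
  (.add (.mul (.k (Int.ofNat 137104488)) (mv 1 3 2))
  (.add (.mul (.k (Int.ofNat 145726128)) (mv 1 5 0))
  (.add (.mul (.k (Int.ofNat 56108592)) (mv 2 1 3))
  (.add (.mul (.k (Int.ofNat 141248124)) (mv 2 3 1))
  (.add (.mul (.k (Int.negSucc 17062919)) (mv 3 1 2))
  (.add (.mul (.k (Int.ofNat 21693096)) (mv 3 3 0))
  (.add (.mul (.k (Int.negSucc 16211501)) (mv 4 1 1))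
  (.mul (.k (Int.negSucc 6876791)) (mv 5 1 0))))))))))))

/-- row 13 -/
def k1r13 : PExp :=
  .add (.mul (.k (Int.ofNat 512000)) (mv 0 0 6))
  (.add (.mul (.k (Int.ofNat 576768)) (mv 0 2 4))
  (.add (.mul (.k (Int.negSucc 1037087)) (mv 0 4 2))
  (.add (.mul (.k (Int.ofNat 6979608)) (mv 0 6 0))
  (.add (.mul (.k (Int.ofNat 512000)) (mv 1 0 5))
  (.add (.mul (.k (Int.negSucc 297599)) (mv 1 2 3))
  (.add (.mul (.k (Int.ofNat 3920112)) (mv 1 4 1))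
  (.add (.mul (.k (Int.negSucc 201983)) (mv 2 0 4))
  (.add (.mul (.k (Int.negSucc 459455)) (mv 2 2 2))
  (.add (.mul (.k (Int.ofNat 16266168)) (mv 2 4 0))
  (.add (.mul (.k (Int.negSucc 200319)) (mv 3 0 3))
  (.add (.mul (.k (Int.ofNat 651168)) (mv 3 2 1))
  (.add (.mul (.k (Int.ofNat 264928)) (mv 4 0 2))
  (.add (.mul (.k (Int.ofNat 1498824)) (mv 4 2 0))
  (.add (.mul (.k (Int.ofNat 477808)) (mv 5 0 1))
  (.mul (.k (Int.negSucc 80023)) (mv 6 0 0))))))))))))))))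

/-- row 14 -/
def k1r14 : PExp :=
  .add (.mul (.k (Int.negSucc 414719)) (mv 0 1 5))
  (.add (.mul (.k (Int.ofNat 880704)) (mv 0 3 3))
  (.add (.mul (.k (Int.ofNat 18538416)) (mv 0 5 1))
  (.add (.mul (.k (Int.ofNat 1050240)) (mv 1 1 4))
  (.add (.mul (.k (Int.negSucc 15190559)) (mv 1 3 2))
  (.add (.mul (.k (Int.ofNat 56108592)) (mv 1 5 0))
  (.add (.mul (.k (Int.ofNat 5737920)) (mv 2 1 3))
  (.add (.mul (.k (Int.negSucc 21227327)) (mv 2 3 1))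
  (.add (.mul (.k (Int.ofNat 264864)) (mv 3 1 2))
  (.add (.mul (.k (Int.negSucc 40988447)) (mv 3 3 0))
  (.add (.mul (.k (Int.negSucc 8023151)) (mv 4 1 1))
  (.mul (.k (Int.ofNat 3835248)) (mv 5 1 0))))))))))))

/-- row 15 -/
def k1r15 : PExp :=
  .add (.mul (.k (Int.ofNat 321792)) (mv 0 0 6))
  (.add (.mul (.k (Int.ofNat 2710080)) (mv 0 2 4))
  (.add (.mul (.k (Int.ofNat 32629392)) (mv 0 4 2))
  (.add (.mul (.k (Int.ofNat 13388976)) (mv 0 6 0))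
  (.add (.mul (.k (Int.ofNat 555264)) (mv 1 0 5))
  (.add (.mul (.k (Int.negSucc 13289183)) (mv 1 2 3))
  (.add (.mul (.k (Int.ofNat 108265248)) (mv 1 4 1))
  (.add (.mul (.k (Int.negSucc 459455)) (mv 2 0 4))
  (.add (.mul (.k (Int.negSucc 59894207)) (mv 2 2 2))
  (.add (.mul (.k (Int.ofNat 27118152)) (mv 2 4 0))
  (.add (.mul (.k (Int.negSucc 3851807)) (mv 3 0 3))
  (.add (.mul (.k (Int.negSucc 36190079)) (mv 3 2 1))
  (.add (.mul (.k (Int.ofNat 9340848)) (mv 4 0 2))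
  (.add (.mul (.k (Int.ofNat 22453632)) (mv 4 2 0))
  (.add (.mul (.k (Int.ofNat 2885856)) (mv 5 0 1))
  (.mul (.k (Int.negSucc 1654775)) (mv 6 0 0))))))))))))))))

/-- row 16 -/
def k1r16 : PExp :=
  .add (.mul (.k (Int.negSucc 23615)) (mv 0 1 5))
  (.add (.mul (.k (Int.negSucc 1515455)) (mv 0 3 3))
  (.add (.mul (.k (Int.negSucc 33470495)) (mv 0 5 1))
  (.add (.mul (.k (Int.negSucc 21521087)) (mv 1 1 4))
  (.add (.mul (.k (Int.ofNat 187421904)) (mv 1 3 2))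
  (.add (.mul (.k (Int.ofNat 141248124)) (mv 1 5 0))
  (.add (.mul (.k (Int.negSucc 21227327)) (mv 2 1 3))
  (.add (.mul (.k (Int.ofNat 303090768)) (mv 2 3 1))
  (.add (.mul (.k (Int.negSucc 19368143)) (mv 3 1 2))
  (.add (.mul (.k (Int.ofNat 32706504)) (mv 3 3 0))
  (.add (.mul (.k (Int.negSucc 37087919)) (mv 4 1 1))
  (.mul (.k (Int.negSucc 5353091)) (mv 5 1 0))))))))))))

/-- row 17 -/
def k1r17 : PExp :=
  .add (.mul (.k (Int.ofNat 2018304)) (mv 0 0 6))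
  (.add (.mul (.k (Int.ofNat 8128296)) (mv 0 2 4))
  (.add (.mul (.k (Int.negSucc 31092335)) (mv 0 4 2))
  (.add (.mul (.k (Int.ofNat 138447063)) (mv 0 6 0))
  (.add (.mul (.k (Int.negSucc 3121487)) (mv 1 0 5))
  (.add (.mul (.k (Int.ofNat 121457664)) (mv 1 2 3))
  (.add (.mul (.k (Int.negSucc 60950717)) (mv 1 4 1))
  (.add (.mul (.k (Int.ofNat 16266168)) (mv 2 0 4))
  (.add (.mul (.k (Int.ofNat 27118152)) (mv 2 2 2))
  (.add (.mul (.k (Int.negSucc 915787376)) (mv 2 4 0))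
  (.add (.mul (.k (Int.negSucc 6327791)) (mv 3 0 3))
  (.add (.mul (.k (Int.negSucc 60748379)) (mv 3 2 1))
  (.add (.mul (.k (Int.negSucc 8447399)) (mv 4 0 2))
  (.add (.mul (.k (Int.ofNat 312722505)) (mv 4 2 0))
  (.add (.mul (.k (Int.ofNat 7533162)) (mv 5 0 1))
  (.mul (.k (Int.negSucc 9960686)) (mv 6 0 0))))))))))))))))

/-- row 18 -/
def k1r18 : PExp :=
  .add (.mul (.k (Int.ofNat 449280)) (mv 0 2 4))
  (.add (.mul (.k (Int.negSucc 1384127)) (mv 0 4 2))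
  (.add (.mul (.k (Int.negSucc 964655)) (mv 0 6 0))
  (.add (.mul (.k (Int.negSucc 138239)) (mv 1 0 5))
  (.add (.mul (.k (Int.ofNat 1285440)) (mv 1 2 3))
  (.add (.mul (.k (Int.negSucc 710495)) (mv 1 4 1))
  (.add (.mul (.k (Int.negSucc 200319)) (mv 2 0 4))
  (.add (.mul (.k (Int.negSucc 3851807)) (mv 2 2 2))
  (.add (.mul (.k (Int.negSucc 6327791)) (mv 2 4 0))
  (.add (.mul (.k (Int.ofNat 592576)) (mv 3 0 3))
  (.add (.mul (.k (Int.negSucc 30815)) (mv 3 2 1))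
  (.add (.mul (.k (Int.ofNat 645984)) (mv 4 0 2))
  (.add (.mul (.k (Int.ofNat 3308784)) (mv 4 2 0))
  (.add (.mul (.k (Int.negSucc 302143)) (mv 5 0 1))
  (.mul (.k (Int.negSucc 364111)) (mv 6 0 0)))))))))))))))

/-- row 19 -/
def k1r19 : PExp :=
  .add (.mul (.k (Int.negSucc 263807)) (mv 0 1 5))
  (.add (.mul (.k (Int.ofNat 794592)) (mv 0 3 3))
  (.add (.mul (.k (Int.negSucc 722951)) (mv 0 5 1))
  (.add (.mul (.k (Int.ofNat 1372416)) (mv 1 1 4))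
  (.add (.mul (.k (Int.ofNat 18535680)) (mv 1 3 2))
  (.add (.mul (.k (Int.negSucc 17062919)) (mv 1 5 0))
  (.add (.mul (.k (Int.ofNat 264864)) (mv 2 1 3))
  (.add (.mul (.k (Int.negSucc 19368143)) (mv 2 3 1))
  (.add (.mul (.k (Int.negSucc 8155007)) (mv 3 1 2))
  (.add (.mul (.k (Int.negSucc 4350671)) (mv 3 3 0))
  (.add (.mul (.k (Int.ofNat 2018136)) (mv 4 1 1))
  (.mul (.k (Int.ofNat 445656)) (mv 5 1 0))))))))))))

/-- row 20 -/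
def k1r20 : PExp :=
  .add (.mul (.k (Int.ofNat 529536)) (mv 0 0 6))
  (.add (.mul (.k (Int.negSucc 3900383)) (mv 0 2 4))
  (.add (.mul (.k (Int.ofNat 3666600)) (mv 0 4 2))
  (.add (.mul (.k (Int.ofNat 9707688)) (mv 0 6 0))
  (.add (.mul (.k (Int.ofNat 927168)) (mv 1 0 5))
  (.add (.mul (.k (Int.negSucc 5778719)) (mv 1 2 3))
  (.add (.mul (.k (Int.negSucc 97036271)) (mv 1 4 1))
  (.add (.mul (.k (Int.ofNat 651168)) (mv 2 0 4))
  (.add (.mul (.k (Int.negSucc 36190079)) (mv 2 2 2))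
  (.add (.mul (.k (Int.negSucc 60748379)) (mv 2 4 0))
  (.add (.mul (.k (Int.negSucc 30815)) (mv 3 0 3))
  (.add (.mul (.k (Int.ofNat 71439120)) (mv 3 2 1))
  (.add (.mul (.k (Int.ofNat 5213016)) (mv 4 0 2))
  (.add (.mul (.k (Int.ofNat 5076576)) (mv 4 2 0))
  (.add (.mul (.k (Int.negSucc 3950111)) (mv 5 0 1))
  (.mul (.k (Int.ofNat 1050516)) (mv 6 0 0))))))))))))))))

/-- row 21 -/
def k1r21 : PExp :=
  .add (.mul (.k (Int.negSucc 7477631)) (mv 0 1 5))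
  (.add (.mul (.k (Int.ofNat 55027296)) (mv 0 3 3))
  (.add (.mul (.k (Int.negSucc 1626803)) (mv 0 5 1))
  (.add (.mul (.k (Int.negSucc 14367743)) (mv 1 1 4))
  (.add (.mul (.k (Int.ofNat 28630800)) (mv 1 3 2))
  (.add (.mul (.k (Int.ofNat 21693096)) (mv 1 5 0))
  (.add (.mul (.k (Int.negSucc 40988447)) (mv 2 1 3))
  (.add (.mul (.k (Int.ofNat 32706504)) (mv 2 3 1))
  (.add (.mul (.k (Int.negSucc 4350671)) (mv 3 1 2))
  (.add (.mul (.k (Int.ofNat 12456288)) (mv 3 3 0))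
  (.add (.mul (.k (Int.negSucc 3000275)) (mv 4 1 1))
  (.mul (.k (Int.negSucc 573767)) (mv 5 1 0))))))))))))

/-- row 22 -/
def k1r22 : PExp :=
  .add (.mul (.k (Int.ofNat 53632)) (mv 0 0 6))
  (.add (.mul (.k (Int.negSucc 572831)) (mv 0 2 4))
  (.add (.mul (.k (Int.ofNat 5090832)) (mv 0 4 2))
  (.add (.mul (.k (Int.ofNat 2590920)) (mv 0 6 0))
  (.add (.mul (.k (Int.negSucc 48575)) (mv 1 0 5))
  (.add (.mul (.k (Int.ofNat 1648992)) (mv 1 2 3))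
  (.add (.mul (.k (Int.negSucc 7804547)) (mv 1 4 1))
  (.add (.mul (.k (Int.ofNat 264928)) (mv 2 0 4))
  (.add (.mul (.k (Int.ofNat 9340848)) (mv 2 2 2))
  (.add (.mul (.k (Int.negSucc 8447399)) (mv 2 4 0))
  (.add (.mul (.k (Int.ofNat 645984)) (mv 3 0 3))
  (.add (.mul (.k (Int.ofNat 5213016)) (mv 3 2 1))
  (.add (.mul (.k (Int.negSucc 551615)) (mv 4 0 2))
  (.add (.mul (.k (Int.ofNat 794136)) (mv 4 2 0))
  (.add (.mul (.k (Int.negSucc 492627)) (mv 5 0 1))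
  (.mul (.k (Int.ofNat 195592)) (mv 6 0 0))))))))))))))))

/-- row 23 -/
def k1r23 : PExp :=
  .add (.mul (.k (Int.ofNat 463584)) (mv 0 1 5))
  (.add (.mul (.k (Int.ofNat 7013808)) (mv 0 3 3))
  (.add (.mul (.k (Int.ofNat 4709556)) (mv 0 5 1))
  (.add (.mul (.k (Int.negSucc 975647)) (mv 1 1 4))
  (.add (.mul (.k (Int.negSucc 20471255)) (mv 1 3 2))
  (.add (.mul (.k (Int.negSucc 16211501)) (mv 1 5 0))
  (.add (.mul (.k (Int.negSucc 8023151)) (mv 2 1 3))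
  (.add (.mul (.k (Int.negSucc 37087919)) (mv 2 3 1))
  (.add (.mul (.k (Int.ofNat 2018136)) (mv 3 1 2))
  (.add (.mul (.k (Int.negSucc 3000275)) (mv 3 3 0))
  (.add (.mul (.k (Int.ofNat 6386556)) (mv 4 1 1))
  (.mul (.k (Int.ofNat 520674)) (mv 5 1 0))))))))))))

/-- row 24 -/
def k1r24 : PExp :=
  .add (.mul (.k (Int.ofNat 828288)) (mv 0 0 6))
  (.add (.mul (.k (Int.negSucc 1876391)) (mv 0 2 4))
  (.add (.mul (.k (Int.ofNat 18230616)) (mv 0 4 2))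
  (.add (.mul (.k (Int.negSucc 43989398)) (mv 0 6 0))
  (.add (.mul (.k (Int.ofNat 205776)) (mv 1 0 5))
  (.add (.mul (.k (Int.negSucc 15295967)) (mv 1 2 3))
  (.add (.mul (.k (Int.ofNat 69868548)) (mv 1 4 1))
  (.add (.mul (.k (Int.ofNat 1498824)) (mv 2 0 4))
  (.add (.mul (.k (Int.ofNat 22453632)) (mv 2 2 2))
  (.add (.mul (.k (Int.ofNat 312722505)) (mv 2 4 0))
  (.add (.mul (.k (Int.ofNat 3308784)) (mv 3 0 3))
  (.add (.mul (.k (Int.ofNat 5076576)) (mv 3 2 1))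
  (.add (.mul (.k (Int.ofNat 794136)) (mv 4 0 2))
  (.add (.mul (.k (Int.negSucc 83849552)) (mv 4 2 0))
  (.add (.mul (.k (Int.negSucc 1414739)) (mv 5 0 1))
  (.mul (.k (Int.ofNat 2339199)) (mv 6 0 0))))))))))))))))

/-- row 25 -/
def k1r25 : PExp :=
  .add (.mul (.k (Int.negSucc 88255)) (mv 0 0 6))
  (.add (.mul (.k (Int.negSucc 1108943)) (mv 0 2 4))
  (.add (.mul (.k (Int.negSucc 851147)) (mv 0 4 2))
  (.add (.mul (.k (Int.negSucc 1657151)) (mv 0 6 0))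
  (.add (.mul (.k (Int.ofNat 61024)) (mv 1 0 5))
  (.add (.mul (.k (Int.ofNat 41280)) (mv 1 2 3))
  (.add (.mul (.k (Int.ofNat 4111524)) (mv 1 4 1))
  (.add (.mul (.k (Int.ofNat 477808)) (mv 2 0 4))
  (.add (.mul (.k (Int.ofNat 2885856)) (mv 2 2 2))
  (.add (.mul (.k (Int.ofNat 7533162)) (mv 2 4 0))
  (.add (.mul (.k (Int.negSucc 302143)) (mv 3 0 3))
  (.add (.mul (.k (Int.negSucc 3950111)) (mv 3 2 1))
  (.add (.mul (.k (Int.negSucc 492627)) (mv 4 0 2))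
  (.add (.mul (.k (Int.negSucc 1414739)) (mv 4 2 0))
  (.add (.mul (.k (Int.ofNat 384700)) (mv 5 0 1))
  (.mul (.k (Int.negSucc 78133)) (mv 6 0 0))))))))))))))))

/-- row 26 -/
def k1r26 : PExp :=
  .add (.mul (.k (Int.negSucc 912383)) (mv 0 1 5))
  (.add (.mul (.k (Int.negSucc 6293519)) (mv 0 3 3))
  (.add (.mul (.k (Int.ofNat 104706)) (mv 0 5 1))
  (.add (.mul (.k (Int.ofNat 262656)) (mv 1 1 4))
  (.add (.mul (.k (Int.negSucc 5690231)) (mv 1 3 2))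
  (.add (.mul (.k (Int.negSucc 6876791)) (mv 1 5 0))
  (.add (.mul (.k (Int.ofNat 3835248)) (mv 2 1 3))
  (.add (.mul (.k (Int.negSucc 5353091)) (mv 2 3 1))
  (.add (.mul (.k (Int.ofNat 445656)) (mv 3 1 2))
  (.add (.mul (.k (Int.negSucc 573767)) (mv 3 3 0))
  (.add (.mul (.k (Int.ofNat 520674)) (mv 4 1 1))
  (.mul (.k (Int.ofNat 804384)) (mv 5 1 0))))))))))))

/-- row 27 -/
def k1r27 : PExp :=
  .add (.mul (.k (Int.ofNat 81664)) (mv 0 0 6))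
  (.add (.mul (.k (Int.ofNat 1621560)) (mv 0 2 4))
  (.add (.mul (.k (Int.ofNat 242496)) (mv 0 4 2))
  (.add (.mul (.k (Int.ofNat 1682289)) (mv 0 6 0))
  (.add (.mul (.k (Int.ofNat 235536)) (mv 1 0 5))
  (.add (.mul (.k (Int.ofNat 907584)) (mv 1 2 3))
  (.add (.mul (.k (Int.negSucc 3163949)) (mv 1 4 1))
  (.add (.mul (.k (Int.negSucc 80023)) (mv 2 0 4))
  (.add (.mul (.k (Int.negSucc 1654775)) (mv 2 2 2))
  (.add (.mul (.k (Int.negSucc 9960686)) (mv 2 4 0))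
  (.add (.mul (.k (Int.negSucc 364111)) (mv 3 0 3))
  (.add (.mul (.k (Int.ofNat 1050516)) (mv 3 2 1))
  (.add (.mul (.k (Int.ofNat 195592)) (mv 4 0 2))
  (.add (.mul (.k (Int.ofNat 2339199)) (mv 4 2 0))
  (.add (.mul (.k (Int.negSucc 78133)) (mv 5 0 1))
  (.mul (.k (Int.negSucc 1280)) (mv 6 0 0))))))))))))))))

/-- the kernel of level 1 -/
def K1 : PExp :=
  .add (.mul k1r0 (mu 0 0 6))
  (.add (.mul k1r1 (mu 0 1 5))
  (.add (.mul k1r2 (mu 0 2 4))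
  (.add (.mul k1r3 (mu 0 3 3))
  (.add (.mul k1r4 (mu 0 4 2))
  (.add (.mul k1r5 (mu 0 5 1))
  (.add (.mul k1r6 (mu 0 6 0))
  (.add (.mul k1r7 (mu 1 0 5))
  (.add (.mul k1r8 (mu 1 1 4))
  (.add (.mul k1r9 (mu 1 2 3))
  (.add (.mul k1r10 (mu 1 3 2))
  (.add (.mul k1r11 (mu 1 4 1))
  (.add (.mul k1r12 (mu 1 5 0))
  (.add (.mul k1r13 (mu 2 0 4))
  (.add (.mul k1r14 (mu 2 1 3))
  (.add (.mul k1r15 (mu 2 2 2))
  (.add (.mul k1r16 (mu 2 3 1))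
  (.add (.mul k1r17 (mu 2 4 0))
  (.add (.mul k1r18 (mu 3 0 3))
  (.add (.mul k1r19 (mu 3 1 2))
  (.add (.mul k1r20 (mu 3 2 1))
  (.add (.mul k1r21 (mu 3 3 0))
  (.add (.mul k1r22 (mu 4 0 2))
  (.add (.mul k1r23 (mu 4 1 1))
  (.add (.mul k1r24 (mu 4 2 0))
  (.add (.mul k1r25 (mu 5 0 1))
  (.add (.mul k1r26 (mu 5 1 0))
  (.mul k1r27 (mu 6 0 0))))))))))))))))))))))))))))

/-- row 0 -/
def k2r0 : PExp :=
  .add (.mul (.k (Int.ofNat 1536000)) (mv 0 2 4))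
  (.add (.mul (.k (Int.ofNat 154368)) (mv 0 4 2))
  (.add (.mul (.k (Int.ofNat 222048)) (mv 0 6 0))
  (.add (.mul (.k (Int.negSucc 340415)) (mv 1 4 1))
  (.add (.mul (.k (Int.ofNat 512000)) (mv 2 0 4))
  (.add (.mul (.k (Int.ofNat 102912)) (mv 2 2 2))
  (.add (.mul (.k (Int.ofNat 227232)) (mv 2 4 0))
  (.add (.mul (.k (Int.negSucc 75647)) (mv 3 2 1))
  (.add (.mul (.k (Int.ofNat 17152)) (mv 4 0 2))
  (.add (.mul (.k (Int.ofNat 72864)) (mv 4 2 0))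
  (.add (.mul (.k (Int.ofNat 12608)) (mv 5 0 1))
  (.mul (.k (Int.ofNat 8288)) (mv 6 0 0))))))))))))

/-- row 1 -/
def k2r1 : PExp :=
  .add (.mul (.k (Int.ofNat 3072000)) (mv 0 1 5))
  (.add (.mul (.k (Int.negSucc 1778687)) (mv 0 3 3))
  (.add (.mul (.k (Int.ofNat 876960)) (mv 0 5 1))
  (.add (.mul (.k (Int.negSucc 3071999)) (mv 1 1 4))
  (.add (.mul (.k (Int.negSucc 2442239)) (mv 1 3 2))
  (.add (.mul (.k (Int.ofNat 3876768)) (mv 1 5 0))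
  (.add (.mul (.k (Int.negSucc 592895)) (mv 2 1 3))
  (.add (.mul (.k (Int.ofNat 1624896)) (mv 2 3 1))
  (.add (.mul (.k (Int.negSucc 282623)) (mv 3 1 2))
  (.add (.mul (.k (Int.ofNat 368064)) (mv 3 3 0))
  (.add (.mul (.k (Int.negSucc 18143)) (mv 4 1 1))
  (.mul (.k (Int.negSucc 308063)) (mv 5 1 0))))))))))))

/-- row 2 -/
def k2r2 : PExp :=
  .add (.mul (.k (Int.ofNat 1536000)) (mv 0 0 6))
  (.add (.mul (.k (Int.negSucc 2119679)) (mv 0 2 4))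
  (.add (.mul (.k (Int.ofNat 2669760)) (mv 0 4 2))
  (.add (.mul (.k (Int.ofNat 10495656)) (mv 0 6 0))
  (.add (.mul (.k (Int.negSucc 1535999)) (mv 1 0 5))
  (.add (.mul (.k (Int.ofNat 161856)) (mv 1 2 3))
  (.add (.mul (.k (Int.ofNat 14476320)) (mv 1 4 1))
  (.add (.mul (.k (Int.ofNat 654336)) (mv 2 0 4))
  (.add (.mul (.k (Int.ofNat 4442688)) (mv 2 2 2))
  (.add (.mul (.k (Int.ofNat 13216824)) (mv 2 4 0))
  (.add (.mul (.k (Int.negSucc 24383)) (mv 3 0 3))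
  (.add (.mul (.k (Int.ofNat 3008448)) (mv 3 2 1))
  (.add (.mul (.k (Int.negSucc 216575)) (mv 4 0 2))
  (.add (.mul (.k (Int.ofNat 3753432)) (mv 4 2 0))
  (.add (.mul (.k (Int.negSucc 444383)) (mv 5 0 1))
  (.mul (.k (Int.ofNat 490056)) (mv 6 0 0))))))))))))))))

/-- row 3 -/
def k2r3 : PExp :=
  .add (.mul (.k (Int.negSucc 1778687)) (mv 0 1 5))
  (.add (.mul (.k (Int.ofNat 7921152)) (mv 0 3 3))
  (.add (.mul (.k (Int.negSucc 13355279)) (mv 0 5 1))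
  (.add (.mul (.k (Int.negSucc 28799)) (mv 1 1 4))
  (.add (.mul (.k (Int.ofNat 107136)) (mv 1 3 2))
  (.add (.mul (.k (Int.negSucc 22156415)) (mv 1 5 0))
  (.add (.mul (.k (Int.ofNat 3432960)) (mv 2 1 3))
  (.add (.mul (.k (Int.negSucc 19935935)) (mv 2 3 1))
  (.add (.mul (.k (Int.negSucc 3620735)) (mv 3 1 2))
  (.add (.mul (.k (Int.negSucc 1752191)) (mv 3 3 0))
  (.add (.mul (.k (Int.ofNat 270288)) (mv 4 1 1))
  (.mul (.k (Int.ofNat 579456)) (mv 5 1 0))))))))))))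

/-- row 4 -/
def k2r4 : PExp :=
  .add (.mul (.k (Int.ofNat 154368)) (mv 0 0 6))
  (.add (.mul (.k (Int.ofNat 2669760)) (mv 0 2 4))
  (.add (.mul (.k (Int.negSucc 13141439)) (mv 0 4 2))
  (.add (.mul (.k (Int.ofNat 15804234)) (mv 0 6 0))
  (.add (.mul (.k (Int.negSucc 623231)) (mv 1 0 5))
  (.add (.mul (.k (Int.negSucc 4355423)) (mv 1 2 3))
  (.add (.mul (.k (Int.ofNat 12112416)) (mv 1 4 1))
  (.add (.mul (.k (Int.ofNat 400896)) (mv 2 0 4))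
  (.add (.mul (.k (Int.negSucc 17823023)) (mv 2 2 2))
  (.add (.mul (.k (Int.ofNat 6839478)) (mv 2 4 0))
  (.add (.mul (.k (Int.negSucc 1320479)) (mv 3 0 3))
  (.add (.mul (.k (Int.ofNat 7191936)) (mv 3 2 1))
  (.add (.mul (.k (Int.ofNat 1840752)) (mv 4 0 2))
  (.add (.mul (.k (Int.ofNat 10809126)) (mv 4 2 0))
  (.add (.mul (.k (Int.ofNat 666144)) (mv 5 0 1))
  (.mul (.k (Int.negSucc 200357)) (mv 6 0 0))))))))))))))))

/-- row 5 -/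
def k2r5 : PExp :=
  .add (.mul (.k (Int.ofNat 876960)) (mv 0 1 5))
  (.add (.mul (.k (Int.negSucc 13355279)) (mv 0 3 3))
  (.add (.mul (.k (Int.ofNat 2673000)) (mv 0 5 1))
  (.add (.mul (.k (Int.ofNat 694656)) (mv 1 1 4))
  (.add (.mul (.k (Int.ofNat 5599368)) (mv 1 3 2))
  (.add (.mul (.k (Int.negSucc 26010719)) (mv 1 5 0))
  (.add (.mul (.k (Int.negSucc 3262895)) (mv 2 1 3))
  (.add (.mul (.k (Int.negSucc 4449167)) (mv 2 3 1))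
  (.add (.mul (.k (Int.ofNat 6644376)) (mv 3 1 2))
  (.add (.mul (.k (Int.negSucc 18812735)) (mv 3 3 0))
  (.add (.mul (.k (Int.negSucc 5296535)) (mv 4 1 1))
  (.mul (.k (Int.ofNat 2376000)) (mv 5 1 0))))))))))))

/-- row 6 -/
def k2r6 : PExp :=
  .add (.mul (.k (Int.ofNat 222048)) (mv 0 0 6))
  (.add (.mul (.k (Int.ofNat 10495656)) (mv 0 2 4))
  (.add (.mul (.k (Int.ofNat 15804234)) (mv 0 4 2))
  (.add (.mul (.k (Int.negSucc 27326564)) (mv 0 6 0))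
  (.add (.mul (.k (Int.negSucc 555119)) (mv 1 0 5))
  (.add (.mul (.k (Int.ofNat 1151496)) (mv 1 2 3))
  (.add (.mul (.k (Int.negSucc 3176981)) (mv 1 4 1))
  (.add (.mul (.k (Int.ofNat 4324968)) (mv 2 0 4))
  (.add (.mul (.k (Int.ofNat 16269012)) (mv 2 2 2))
  (.add (.mul (.k (Int.ofNat 19318500)) (mv 2 4 0))
  (.add (.mul (.k (Int.negSucc 2807)) (mv 3 0 3))
  (.add (.mul (.k (Int.negSucc 2395331)) (mv 3 2 1))
  (.add (.mul (.k (Int.ofNat 487458)) (mv 4 0 2))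
  (.add (.mul (.k (Int.negSucc 13715324)) (mv 4 2 0))
  (.add (.mul (.k (Int.ofNat 287658)) (mv 5 0 1))
  (.mul (.k (Int.negSucc 1179521)) (mv 6 0 0))))))))))))))))

/-- row 7 -/
def k2r7 : PExp :=
  .add (.mul (.k (Int.negSucc 1535999)) (mv 0 2 4))
  (.add (.mul (.k (Int.negSucc 623231)) (mv 0 4 2))
  (.add (.mul (.k (Int.negSucc 555119)) (mv 0 6 0))
  (.add (.mul (.k (Int.ofNat 1024000)) (mv 1 0 5))
  (.add (.mul (.k (Int.negSucc 592895)) (mv 1 2 3))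
  (.add (.mul (.k (Int.ofNat 812448)) (mv 1 4 1))
  (.add (.mul (.k (Int.ofNat 512000)) (mv 2 0 4))
  (.add (.mul (.k (Int.negSucc 398591)) (mv 2 2 2))
  (.add (.mul (.k (Int.ofNat 1477296)) (mv 2 4 0))
  (.add (.mul (.k (Int.negSucc 197631)) (mv 3 0 3))
  (.add (.mul (.k (Int.negSucc 36287)) (mv 3 2 1))
  (.add (.mul (.k (Int.ofNat 113536)) (mv 4 0 2))
  (.add (.mul (.k (Int.ofNat 431088)) (mv 4 2 0))
  (.add (.mul (.k (Int.ofNat 51744)) (mv 5 0 1))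
  (.mul (.k (Int.negSucc 41007)) (mv 6 0 0)))))))))))))))

/-- row 8 -/
def k2r8 : PExp :=
  .add (.mul (.k (Int.negSucc 3071999)) (mv 0 1 5))
  (.add (.mul (.k (Int.negSucc 28799)) (mv 0 3 3))
  (.add (.mul (.k (Int.ofNat 694656)) (mv 0 5 1))
  (.add (.mul (.k (Int.negSucc 2721791)) (mv 1 1 4))
  (.add (.mul (.k (Int.ofNat 7281792)) (mv 1 3 2))
  (.add (.mul (.k (Int.negSucc 1090367)) (mv 1 5 0))
  (.add (.mul (.k (Int.negSucc 9599)) (mv 2 1 3))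
  (.add (.mul (.k (Int.ofNat 1188864)) (mv 2 3 1))
  (.add (.mul (.k (Int.negSucc 374399)) (mv 3 1 2))
  (.add (.mul (.k (Int.negSucc 976895)) (mv 3 3 0))
  (.add (.mul (.k (Int.negSucc 3455)) (mv 4 1 1))
  (.mul (.k (Int.negSucc 204479)) (mv 5 1 0))))))))))))

/-- row 9 -/
def k2r9 : PExp :=
  .add (.mul (.k (Int.ofNat 161856)) (mv 0 2 4))
  (.add (.mul (.k (Int.negSucc 4355423)) (mv 0 4 2))
  (.add (.mul (.k (Int.ofNat 1151496)) (mv 0 6 0))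
  (.add (.mul (.k (Int.negSucc 592895)) (mv 1 0 5))
  (.add (.mul (.k (Int.ofNat 3792384)) (mv 1 2 3))
  (.add (.mul (.k (Int.negSucc 10844495)) (mv 1 4 1))
  (.add (.mul (.k (Int.ofNat 63552)) (mv 2 0 4))
  (.add (.mul (.k (Int.ofNat 2545344)) (mv 2 2 2))
  (.add (.mul (.k (Int.negSucc 5674967)) (mv 2 4 0))
  (.add (.mul (.k (Int.ofNat 840192)) (mv 3 0 3))
  (.add (.mul (.k (Int.negSucc 182591)) (mv 3 2 1))
  (.add (.mul (.k (Int.ofNat 113568)) (mv 4 0 2))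
  (.add (.mul (.k (Int.negSucc 1307303)) (mv 4 2 0))
  (.add (.mul (.k (Int.negSucc 666479)) (mv 5 0 1))
  (.mul (.k (Int.ofNat 277752)) (mv 6 0 0)))))))))))))))

/-- row 10 -/
def k2r10 : PExp :=
  .add (.mul (.k (Int.negSucc 2442239)) (mv 0 1 5))
  (.add (.mul (.k (Int.ofNat 107136)) (mv 0 3 3))
  (.add (.mul (.k (Int.ofNat 5599368)) (mv 0 5 1))
  (.add (.mul (.k (Int.ofNat 7281792)) (mv 1 1 4))
  (.add (.mul (.k (Int.negSucc 68617151)) (mv 1 3 2))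
  (.add (.mul (.k (Int.ofNat 46659888)) (mv 1 5 0))
  (.add (.mul (.k (Int.ofNat 35712)) (mv 2 1 3))
  (.add (.mul (.k (Int.negSucc 13537583)) (mv 2 3 1))
  (.add (.mul (.k (Int.negSucc 9607103)) (mv 3 1 2))
  (.add (.mul (.k (Int.ofNat 17991072)) (mv 3 3 0))
  (.add (.mul (.k (Int.ofNat 2541096)) (mv 4 1 1))
  (.mul (.k (Int.ofNat 812592)) (mv 5 1 0))))))))))))

/-- row 11 -/
def k2r11 : PExp :=
  .add (.mul (.k (Int.negSucc 340415)) (mv 0 0 6))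
  (.add (.mul (.k (Int.ofNat 14476320)) (mv 0 2 4))
  (.add (.mul (.k (Int.ofNat 12112416)) (mv 0 4 2))
  (.add (.mul (.k (Int.negSucc 3176981)) (mv 0 6 0))
  (.add (.mul (.k (Int.ofNat 812448)) (mv 1 0 5))
  (.add (.mul (.k (Int.negSucc 10844495)) (mv 1 2 3))
  (.add (.mul (.k (Int.ofNat 19902672)) (mv 1 4 1))
  (.add (.mul (.k (Int.ofNat 4231008)) (mv 2 0 4))
  (.add (.mul (.k (Int.negSucc 7859591)) (mv 2 2 2))
  (.add (.mul (.k (Int.ofNat 9303498)) (mv 2 4 0))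
  (.add (.mul (.k (Int.negSucc 3357359)) (mv 3 0 3))
  (.add (.mul (.k (Int.ofNat 1295136)) (mv 3 2 1))
  (.add (.mul (.k (Int.ofNat 1079496)) (mv 4 0 2))
  (.add (.mul (.k (Int.negSucc 5868017)) (mv 4 2 0))
  (.add (.mul (.k (Int.negSucc 130607)) (mv 5 0 1))
  (.mul (.k (Int.negSucc 51425)) (mv 6 0 0))))))))))))))))

/-- row 12 -/
def k2r12 : PExp :=
  .add (.mul (.k (Int.ofNat 3876768)) (mv 0 1 5))
  (.add (.mul (.k (Int.negSucc 22156415)) (mv 0 3 3))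
  (.add (.mul (.k (Int.negSucc 26010719)) (mv 0 5 1))
  (.add (.mul (.k (Int.negSucc 1090367)) (mv 1 1 4))
  (.add (.mul (.k (Int.ofNat 46659888)) (mv 1 3 2))
  (.add (.mul (.k (Int.negSucc 123230159)) (mv 1 5 0))
  (.add (.mul (.k (Int.negSucc 4464287)) (mv 2 1 3))
  (.add (.mul (.k (Int.negSucc 6098327)) (mv 2 3 1))
  (.add (.mul (.k (Int.ofNat 5702832)) (mv 3 1 2))
  (.add (.mul (.k (Int.negSucc 22716935)) (mv 3 3 0))
  (.add (.mul (.k (Int.negSucc 9896039)) (mv 4 1 1))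
  (.mul (.k (Int.ofNat 9785016)) (mv 5 1 0))))))))))))

/-- row 13 -/
def k2r13 : PExp :=
  .add (.mul (.k (Int.ofNat 512000)) (mv 0 0 6))
  (.add (.mul (.k (Int.ofNat 654336)) (mv 0 2 4))
  (.add (.mul (.k (Int.ofNat 400896)) (mv 0 4 2))
  (.add (.mul (.k (Int.ofNat 4324968)) (mv 0 6 0))
  (.add (.mul (.k (Int.ofNat 512000)) (mv 1 0 5))
  (.add (.mul (.k (Int.ofNat 63552)) (mv 1 2 3))
  (.add (.mul (.k (Int.ofNat 4231008)) (mv 1 4 1))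
  (.add (.mul (.k (Int.negSucc 235519)) (mv 2 0 4))
  (.add (.mul (.k (Int.negSucc 620351)) (mv 2 2 2))
  (.add (.mul (.k (Int.ofNat 4493592)) (mv 2 4 0))
  (.add (.mul (.k (Int.negSucc 4927)) (mv 3 0 3))
  (.add (.mul (.k (Int.ofNat 1009728)) (mv 3 2 1))
  (.add (.mul (.k (Int.ofNat 215616)) (mv 4 0 2))
  (.add (.mul (.k (Int.ofNat 1117656)) (mv 4 2 0))
  (.add (.mul (.k (Int.negSucc 187295)) (mv 5 0 1))
  (.mul (.k (Int.ofNat 139688)) (mv 6 0 0))))))))))))))))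

/-- row 14 -/
def k2r14 : PExp :=
  .add (.mul (.k (Int.negSucc 592895)) (mv 0 1 5))
  (.add (.mul (.k (Int.ofNat 3432960)) (mv 0 3 3))
  (.add (.mul (.k (Int.negSucc 3262895)) (mv 0 5 1))
  (.add (.mul (.k (Int.negSucc 9599)) (mv 1 1 4))
  (.add (.mul (.k (Int.ofNat 35712)) (mv 1 3 2))
  (.add (.mul (.k (Int.negSucc 4464287)) (mv 1 5 0))
  (.add (.mul (.k (Int.ofNat 351744)) (mv 2 1 3))
  (.add (.mul (.k (Int.negSucc 7437887)) (mv 2 3 1))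
  (.add (.mul (.k (Int.negSucc 1206911)) (mv 3 1 2))
  (.add (.mul (.k (Int.negSucc 3829823)) (mv 3 3 0))
  (.add (.mul (.k (Int.negSucc 306191)) (mv 4 1 1))
  (.mul (.k (Int.ofNat 517728)) (mv 5 1 0))))))))))))

/-- row 15 -/
def k2r15 : PExp :=
  .add (.mul (.k (Int.ofNat 102912)) (mv 0 0 6))
  (.add (.mul (.k (Int.ofNat 4442688)) (mv 0 2 4))
  (.add (.mul (.k (Int.negSucc 17823023)) (mv 0 4 2))
  (.add (.mul (.k (Int.ofNat 16269012)) (mv 0 6 0))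
  (.add (.mul (.k (Int.negSucc 398591)) (mv 1 0 5))
  (.add (.mul (.k (Int.ofNat 2545344)) (mv 1 2 3))
  (.add (.mul (.k (Int.negSucc 7859591)) (mv 1 4 1))
  (.add (.mul (.k (Int.negSucc 620351)) (mv 2 0 4))
  (.add (.mul (.k (Int.negSucc 2866175)) (mv 2 2 2))
  (.add (.mul (.k (Int.ofNat 1871100)) (mv 2 4 0))
  (.add (.mul (.k (Int.ofNat 936000)) (mv 3 0 3))
  (.add (.mul (.k (Int.ofNat 1839600)) (mv 3 2 1))
  (.add (.mul (.k (Int.ofNat 1232304)) (mv 4 0 2))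
  (.add (.mul (.k (Int.ofNat 5546988)) (mv 4 2 0))
  (.add (.mul (.k (Int.negSucc 815207)) (mv 5 0 1))
  (.mul (.k (Int.negSucc 175547)) (mv 6 0 0))))))))))))))))

/-- row 16 -/
def k2r16 : PExp :=
  .add (.mul (.k (Int.ofNat 1624896)) (mv 0 1 5))
  (.add (.mul (.k (Int.negSucc 19935935)) (mv 0 3 3))
  (.add (.mul (.k (Int.negSucc 4449167)) (mv 0 5 1))
  (.add (.mul (.k (Int.ofNat 1188864)) (mv 1 1 4))
  (.add (.mul (.k (Int.negSucc 13537583)) (mv 1 3 2))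
  (.add (.mul (.k (Int.negSucc 6098327)) (mv 1 5 0))
  (.add (.mul (.k (Int.negSucc 7437887)) (mv 2 1 3))
  (.add (.mul (.k (Int.ofNat 13883616)) (mv 2 3 1))
  (.add (.mul (.k (Int.ofNat 5577840)) (mv 3 1 2))
  (.add (.mul (.k (Int.ofNat 8693136)) (mv 3 3 0))
  (.add (.mul (.k (Int.ofNat 1824048)) (mv 4 1 1))
  (.mul (.k (Int.negSucc 262583)) (mv 5 1 0))))))))))))

/-- row 17 -/
def k2r17 : PExp :=
  .add (.mul (.k (Int.ofNat 227232)) (mv 0 0 6))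
  (.add (.mul (.k (Int.ofNat 13216824)) (mv 0 2 4))
  (.add (.mul (.k (Int.ofNat 6839478)) (mv 0 4 2))
  (.add (.mul (.k (Int.ofNat 19318500)) (mv 0 6 0))
  (.add (.mul (.k (Int.ofNat 1477296)) (mv 1 0 5))
  (.add (.mul (.k (Int.negSucc 5674967)) (mv 1 2 3))
  (.add (.mul (.k (Int.ofNat 9303498)) (mv 1 4 1))
  (.add (.mul (.k (Int.ofNat 4493592)) (mv 2 0 4))
  (.add (.mul (.k (Int.ofNat 1871100)) (mv 2 2 2))
  (.add (.mul (.k (Int.negSucc 32183162)) (mv 2 4 0))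
  (.add (.mul (.k (Int.negSucc 2369015)) (mv 3 0 3))
  (.add (.mul (.k (Int.negSucc 10727099)) (mv 3 2 1))
  (.add (.mul (.k (Int.negSucc 2359889)) (mv 4 0 2))
  (.add (.mul (.k (Int.negSucc 16121969)) (mv 4 2 0))
  (.add (.mul (.k (Int.negSucc 1269341)) (mv 5 0 1))
  (.mul (.k (Int.ofNat 1979433)) (mv 6 0 0))))))))))))))))

/-- row 18 -/
def k2r18 : PExp :=
  .add (.mul (.k (Int.negSucc 24383)) (mv 0 2 4))
  (.add (.mul (.k (Int.negSucc 1320479)) (mv 0 4 2))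
  (.add (.mul (.k (Int.negSucc 2807)) (mv 0 6 0))
  (.add (.mul (.k (Int.negSucc 197631)) (mv 1 0 5))
  (.add (.mul (.k (Int.ofNat 840192)) (mv 1 2 3))
  (.add (.mul (.k (Int.negSucc 3357359)) (mv 1 4 1))
  (.add (.mul (.k (Int.negSucc 4927)) (mv 2 0 4))
  (.add (.mul (.k (Int.ofNat 936000)) (mv 2 2 2))
  (.add (.mul (.k (Int.negSucc 2369015)) (mv 2 4 0))
  (.add (.mul (.k (Int.ofNat 327168)) (mv 3 0 3))
  (.add (.mul (.k (Int.negSucc 3647)) (mv 3 2 1))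
  (.add (.mul (.k (Int.ofNat 52448)) (mv 4 0 2))
  (.add (.mul (.k (Int.negSucc 544487)) (mv 4 2 0))
  (.add (.mul (.k (Int.negSucc 231695)) (mv 5 0 1))
  (.mul (.k (Int.ofNat 77144)) (mv 6 0 0)))))))))))))))

/-- row 19 -/
def k2r19 : PExp :=
  .add (.mul (.k (Int.negSucc 282623)) (mv 0 1 5))
  (.add (.mul (.k (Int.negSucc 3620735)) (mv 0 3 3))
  (.add (.mul (.k (Int.ofNat 6644376)) (mv 0 5 1))
  (.add (.mul (.k (Int.negSucc 374399)) (mv 1 1 4))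
  (.add (.mul (.k (Int.negSucc 9607103)) (mv 1 3 2))
  (.add (.mul (.k (Int.ofNat 5702832)) (mv 1 5 0))
  (.add (.mul (.k (Int.negSucc 1206911)) (mv 2 1 3))
  (.add (.mul (.k (Int.ofNat 5577840)) (mv 2 3 1))
  (.add (.mul (.k (Int.ofNat 942912)) (mv 3 1 2))
  (.add (.mul (.k (Int.ofNat 981792)) (mv 3 3 0))
  (.add (.mul (.k (Int.ofNat 610680)) (mv 4 1 1))
  (.mul (.k (Int.negSucc 306383)) (mv 5 1 0))))))))))))

/-- row 20 -/
def k2r20 : PExp :=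
  .add (.mul (.k (Int.negSucc 75647)) (mv 0 0 6))
  (.add (.mul (.k (Int.ofNat 3008448)) (mv 0 2 4))
  (.add (.mul (.k (Int.ofNat 7191936)) (mv 0 4 2))
  (.add (.mul (.k (Int.negSucc 2395331)) (mv 0 6 0))
  (.add (.mul (.k (Int.negSucc 36287)) (mv 1 0 5))
  (.add (.mul (.k (Int.negSucc 182591)) (mv 1 2 3))
  (.add (.mul (.k (Int.ofNat 1295136)) (mv 1 4 1))
  (.add (.mul (.k (Int.ofNat 1009728)) (mv 2 0 4))
  (.add (.mul (.k (Int.ofNat 1839600)) (mv 2 2 2))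
  (.add (.mul (.k (Int.negSucc 10727099)) (mv 2 4 0))
  (.add (.mul (.k (Int.negSucc 3647)) (mv 3 0 3))
  (.add (.mul (.k (Int.negSucc 2558591)) (mv 3 2 1))
  (.add (.mul (.k (Int.negSucc 658607)) (mv 4 0 2))
  (.add (.mul (.k (Int.negSucc 3834395)) (mv 4 2 0))
  (.add (.mul (.k (Int.negSucc 427295)) (mv 5 0 1))
  (.mul (.k (Int.ofNat 504156)) (mv 6 0 0))))))))))))))))

/-- row 21 -/
def k2r21 : PExp :=
  .add (.mul (.k (Int.ofNat 368064)) (mv 0 1 5))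
  (.add (.mul (.k (Int.negSucc 1752191)) (mv 0 3 3))
  (.add (.mul (.k (Int.negSucc 18812735)) (mv 0 5 1))
  (.add (.mul (.k (Int.negSucc 976895)) (mv 1 1 4))
  (.add (.mul (.k (Int.ofNat 17991072)) (mv 1 3 2))
  (.add (.mul (.k (Int.negSucc 22716935)) (mv 1 5 0))
  (.add (.mul (.k (Int.negSucc 3829823)) (mv 2 1 3))
  (.add (.mul (.k (Int.ofNat 8693136)) (mv 2 3 1))
  (.add (.mul (.k (Int.ofNat 981792)) (mv 3 1 2))
  (.add (.mul (.k (Int.ofNat 7191072)) (mv 3 3 0))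
  (.add (.mul (.k (Int.ofNat 1946736)) (mv 4 1 1))
  (.mul (.k (Int.ofNat 848808)) (mv 5 1 0))))))))))))

/-- row 22 -/
def k2r22 : PExp :=
  .add (.mul (.k (Int.ofNat 17152)) (mv 0 0 6))
  (.add (.mul (.k (Int.negSucc 216575)) (mv 0 2 4))
  (.add (.mul (.k (Int.ofNat 1840752)) (mv 0 4 2))
  (.add (.mul (.k (Int.ofNat 487458)) (mv 0 6 0))
  (.add (.mul (.k (Int.ofNat 113536)) (mv 1 0 5))
  (.add (.mul (.k (Int.ofNat 113568)) (mv 1 2 3))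
  (.add (.mul (.k (Int.ofNat 1079496)) (mv 1 4 1))
  (.add (.mul (.k (Int.ofNat 215616)) (mv 2 0 4))
  (.add (.mul (.k (Int.ofNat 1232304)) (mv 2 2 2))
  (.add (.mul (.k (Int.negSucc 2359889)) (mv 2 4 0))
  (.add (.mul (.k (Int.ofNat 52448)) (mv 3 0 3))
  (.add (.mul (.k (Int.negSucc 658607)) (mv 3 2 1))
  (.add (.mul (.k (Int.negSucc 519199)) (mv 4 0 2))
  (.add (.mul (.k (Int.ofNat 742638)) (mv 4 2 0))
  (.add (.mul (.k (Int.negSucc 40919)) (mv 5 0 1))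
  (.mul (.k (Int.ofNat 124610)) (mv 6 0 0))))))))))))))))

/-- row 23 -/
def k2r23 : PExp :=
  .add (.mul (.k (Int.negSucc 18143)) (mv 0 1 5))
  (.add (.mul (.k (Int.ofNat 270288)) (mv 0 3 3))
  (.add (.mul (.k (Int.negSucc 5296535)) (mv 0 5 1))
  (.add (.mul (.k (Int.negSucc 3455)) (mv 1 1 4))
  (.add (.mul (.k (Int.ofNat 2541096)) (mv 1 3 2))
  (.add (.mul (.k (Int.negSucc 9896039)) (mv 1 5 0))
  (.add (.mul (.k (Int.negSucc 306191)) (mv 2 1 3))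
  (.add (.mul (.k (Int.ofNat 1824048)) (mv 2 3 1))
  (.add (.mul (.k (Int.ofNat 610680)) (mv 3 1 2))
  (.add (.mul (.k (Int.ofNat 1946736)) (mv 3 3 0))
  (.add (.mul (.k (Int.ofNat 911784)) (mv 4 1 1))
  (.mul (.k (Int.negSucc 170471)) (mv 5 1 0))))))))))))

/-- row 24 -/
def k2r24 : PExp :=
  .add (.mul (.k (Int.ofNat 72864)) (mv 0 0 6))
  (.add (.mul (.k (Int.ofNat 3753432)) (mv 0 2 4))
  (.add (.mul (.k (Int.ofNat 10809126)) (mv 0 4 2))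
  (.add (.mul (.k (Int.negSucc 13715324)) (mv 0 6 0))
  (.add (.mul (.k (Int.ofNat 431088)) (mv 1 0 5))
  (.add (.mul (.k (Int.negSucc 1307303)) (mv 1 2 3))
  (.add (.mul (.k (Int.negSucc 5868017)) (mv 1 4 1))
  (.add (.mul (.k (Int.ofNat 1117656)) (mv 2 0 4))
  (.add (.mul (.k (Int.ofNat 5546988)) (mv 2 2 2))
  (.add (.mul (.k (Int.negSucc 16121969)) (mv 2 4 0))
  (.add (.mul (.k (Int.negSucc 544487)) (mv 3 0 3))
  (.add (.mul (.k (Int.negSucc 3834395)) (mv 3 2 1))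
  (.add (.mul (.k (Int.ofNat 742638)) (mv 4 0 2))
  (.add (.mul (.k (Int.negSucc 12660416)) (mv 4 2 0))
  (.add (.mul (.k (Int.negSucc 19649)) (mv 5 0 1))
  (.mul (.k (Int.ofNat 22128)) (mv 6 0 0))))))))))))))))

/-- row 25 -/
def k2r25 : PExp :=
  .add (.mul (.k (Int.ofNat 12608)) (mv 0 0 6))
  (.add (.mul (.k (Int.negSucc 444383)) (mv 0 2 4))
  (.add (.mul (.k (Int.ofNat 666144)) (mv 0 4 2))
  (.add (.mul (.k (Int.ofNat 287658)) (mv 0 6 0))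
  (.add (.mul (.k (Int.ofNat 51744)) (mv 1 0 5))
  (.add (.mul (.k (Int.negSucc 666479)) (mv 1 2 3))
  (.add (.mul (.k (Int.negSucc 130607)) (mv 1 4 1))
  (.add (.mul (.k (Int.negSucc 187295)) (mv 2 0 4))
  (.add (.mul (.k (Int.negSucc 815207)) (mv 2 2 2))
  (.add (.mul (.k (Int.negSucc 1269341)) (mv 2 4 0))
  (.add (.mul (.k (Int.negSucc 231695)) (mv 3 0 3))
  (.add (.mul (.k (Int.negSucc 427295)) (mv 3 2 1))
  (.add (.mul (.k (Int.negSucc 40919)) (mv 4 0 2))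
  (.add (.mul (.k (Int.negSucc 19649)) (mv 4 2 0))
  (.add (.mul (.k (Int.ofNat 19984)) (mv 5 0 1))
  (.mul (.k (Int.ofNat 31958)) (mv 6 0 0))))))))))))))))

/-- row 26 -/
def k2r26 : PExp :=
  .add (.mul (.k (Int.negSucc 308063)) (mv 0 1 5))
  (.add (.mul (.k (Int.ofNat 579456)) (mv 0 3 3))
  (.add (.mul (.k (Int.ofNat 2376000)) (mv 0 5 1))
  (.add (.mul (.k (Int.negSucc 204479)) (mv 1 1 4))
  (.add (.mul (.k (Int.ofNat 812592)) (mv 1 3 2))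
  (.add (.mul (.k (Int.ofNat 9785016)) (mv 1 5 0))
  (.add (.mul (.k (Int.ofNat 517728)) (mv 2 1 3))
  (.add (.mul (.k (Int.negSucc 262583)) (mv 2 3 1))
  (.add (.mul (.k (Int.negSucc 306383)) (mv 3 1 2))
  (.add (.mul (.k (Int.ofNat 848808)) (mv 3 3 0))
  (.add (.mul (.k (Int.negSucc 170471)) (mv 4 1 1))
  (.mul (.k (Int.negSucc 397055)) (mv 5 1 0))))))))))))

/-- row 27 -/
def k2r27 : PExp :=
  .add (.mul (.k (Int.ofNat 8288)) (mv 0 0 6))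
  (.add (.mul (.k (Int.ofNat 490056)) (mv 0 2 4))
  (.add (.mul (.k (Int.negSucc 200357)) (mv 0 4 2))
  (.add (.mul (.k (Int.negSucc 1179521)) (mv 0 6 0))
  (.add (.mul (.k (Int.negSucc 41007)) (mv 1 0 5))
  (.add (.mul (.k (Int.ofNat 277752)) (mv 1 2 3))
  (.add (.mul (.k (Int.negSucc 51425)) (mv 1 4 1))
  (.add (.mul (.k (Int.ofNat 139688)) (mv 2 0 4))
  (.add (.mul (.k (Int.negSucc 175547)) (mv 2 2 2))
  (.add (.mul (.k (Int.ofNat 1979433)) (mv 2 4 0))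
  (.add (.mul (.k (Int.ofNat 77144)) (mv 3 0 3))
  (.add (.mul (.k (Int.ofNat 504156)) (mv 3 2 1))
  (.add (.mul (.k (Int.ofNat 124610)) (mv 4 0 2))
  (.add (.mul (.k (Int.ofNat 22128)) (mv 4 2 0))
  (.add (.mul (.k (Int.ofNat 31958)) (mv 5 0 1))
  (.mul (.k (Int.negSucc 56694)) (mv 6 0 0))))))))))))))))

/-- the kernel of level 2 -/
def K2 : PExp :=
  .add (.mul k2r0 (mu 0 0 6))
  (.add (.mul k2r1 (mu 0 1 5))
  (.add (.mul k2r2 (mu 0 2 4))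
  (.add (.mul k2r3 (mu 0 3 3))
  (.add (.mul k2r4 (mu 0 4 2))
  (.add (.mul k2r5 (mu 0 5 1))
  (.add (.mul k2r6 (mu 0 6 0))
  (.add (.mul k2r7 (mu 1 0 5))
  (.add (.mul k2r8 (mu 1 1 4))
  (.add (.mul k2r9 (mu 1 2 3))
  (.add (.mul k2r10 (mu 1 3 2))
  (.add (.mul k2r11 (mu 1 4 1))
  (.add (.mul k2r12 (mu 1 5 0))
  (.add (.mul k2r13 (mu 2 0 4))
  (.add (.mul k2r14 (mu 2 1 3))
  (.add (.mul k2r15 (mu 2 2 2))
  (.add (.mul k2r16 (mu 2 3 1))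
  (.add (.mul k2r17 (mu 2 4 0))
  (.add (.mul k2r18 (mu 3 0 3))
  (.add (.mul k2r19 (mu 3 1 2))
  (.add (.mul k2r20 (mu 3 2 1))
  (.add (.mul k2r21 (mu 3 3 0))
  (.add (.mul k2r22 (mu 4 0 2))
  (.add (.mul k2r23 (mu 4 1 1))
  (.add (.mul k2r24 (mu 4 2 0))
  (.add (.mul k2r25 (mu 5 0 1))
  (.add (.mul k2r26 (mu 5 1 0))
  (.mul k2r27 (mu 6 0 0))))))))))))))))))))))))))))

/-- sum of squares -/
def q2 (a b c : PExp) : PExp := .add (.add (.pow a 2) (.pow b 2)) (.pow c 2)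
/-- sum of cubes -/
def q3 (a b c : PExp) : PExp := .add (.add (.pow a 3) (.pow b 3)) (.pow c 3)
/-- `3 Q - S^2` -/
def eA (a b c s : PExp) : PExp := .sub (.mul (.k 3) (q2 a b c)) (.pow s 2)
/-- `9 C - 9 S Q + 2 S^3` -/
def eB (a b c s : PExp) : PExp :=
  .add (.sub (.mul (.k 9) (q3 a b c)) (.mul (.k 9) (.mul s (q2 a b c)))) (.mul (.k 2) (.pow s 3))
/-- `1000 A S^4 + x A^2 S^2 + y A B S + z A^3` -/
def eF (x y z : ℤ) (A B S : PExp) : PExp :=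
  .add (.add (.mul (.k 1000) (.mul A (.pow S 4))) (.mul (.k x) (.mul (.pow A 2) (.pow S 2))))
    (.add (.mul (.k y) (.mul (.mul A B) S)) (.mul (.k z) (.pow A 3)))
/-- `x A^2 S^2 + y A B S + z A^3` -/
def eC (x y z : ℤ) (A B S : PExp) : PExp :=
  .add (.mul (.k x) (.mul (.pow A 2) (.pow S 2)))
    (.add (.mul (.k y) (.mul (.mul A B) S)) (.mul (.k z) (.pow A 3)))
/-- `x A S^2 + y B S + z A^2` -/
def eN (x y z : ℤ) (A B S : PExp) : PExp :=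
  .add (.mul (.k x) (.mul A (.pow S 2)))
    (.add (.mul (.k y) (.mul B S)) (.mul (.k z) (.pow A 2)))

/-- product coordinates -/
def w0 : PExp := .mul (.v 0) (.v 3)
def w1 : PExp := .mul (.v 1) (.v 4)
def w2 : PExp := .mul (.v 2) (.v 5)
def sw : PExp := .add (.add w0 w1) w2
def Aw : PExp := eA w0 w1 w2 sw
def Bw : PExp := eB w0 w1 w2 sw
def Au : PExp := eA (.v 0) (.v 1) (.v 2) (.v 8)
def Bu : PExp := eB (.v 0) (.v 1) (.v 2) (.v 8)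
def Av : PExp := eA (.v 3) (.v 4) (.v 5) (.v 11)
def Bv : PExp := eB (.v 3) (.v 4) (.v 5) (.v 11)

/-- first inequality: the kernel dominates -/
def eI (K : PExp) (x y z : ℤ) : PExp :=
  .sub (.mul (.pow sw 5) K)
    (.mul (.k 3072) (.mul (.mul (.pow (.v 8) 5) (.pow (.v 11) 5)) (eF x y z Aw Bw sw)))

/-- permutation of the second group -/
def pf (a b c i : ℕ) : PExp :=
  cond (Nat.beq i 3) (.v a) (cond (Nat.beq i 4) (.v b) (cond (Nat.beq i 5) (.v c)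
    (cond (Nat.beq i 9) (.sub (.sub (.mul (.k 2) (.v a)) (.v b)) (.v c))
      (cond (Nat.beq i 10) (.sub (.v b) (.v c)) (.v i)))))

/-- sum of the kernel over the six permutations -/
def sumK (K : PExp) : PExp :=
  .add (.add (.add (sb (pf 3 4 5) K) (sb (pf 3 5 4) K)) (.add (sb (pf 4 3 5) K) (sb (pf 4 5 3) K)))
    (.add (sb (pf 5 3 4) K) (sb (pf 5 4 3) K))

/-- second inequality: the average of the kernel is dominated -/
def eJ (K : PExp) (x1 y1 z1 x2 y2 z2 : ℤ) (tau mm : ℤ) : PExp :=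
  .sub (.mul (.k 6144)
    (.sub (.add
      (.mul (.k 10000) (.add (.mul (eF x1 y1 z1 Au Bu (.v 8)) (.pow (.v 11) 6))
        (.mul (.pow (.v 8) 6) (eF x1 y1 z1 Av Bv (.v 11)))))
      (.add
        (.mul (eC x2 y2 z2 Au Bu (.v 8)) (.sub (.mul (.k 10000) (.mul Av (.pow (.v 11) 4)))
          (.mul (.k tau) (.pow (.v 11) 6))))
        (.mul (.sub (.mul (.k 10000) (.mul Au (.pow (.v 8) 4)))
          (.mul (.k tau) (.pow (.v 8) 6))) (eC x2 y2 z2 Av Bv (.v 11)))))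
      (.mul (.k mm) (.mul (.mul Au (.pow (.v 8) 4)) (.mul Av (.pow (.v 11) 4))))))
    (.mul (.k 10000) (sumK K))


def TC2 : Tr := .u02 1 1 .l .l

def TC1 : Tr := .u02 3 1 (.u01 1 1 .l .l) .l

def Tii1 : Tr := .v01 2 1 (.u01 1 1 (.u02 3 1 (.u01 2 1 .l (.u12 1 1 .l .l)) (.u01 1 1 .l .l)) .l) (.u01 1 1 (.v01 1 3 (.u01 1 1 .l .l) .l) (.v12 1 1 (.v01 1 1 .l .l) .l))

def Tii2 : Tr := .u02 1 2 (.v01 2 3 (.v02 2 3 (.u01 1 1 .l .l) (.u01 1 1 .l .l)) (.u01 1 1 .l .l)) (.v02 1 1 .l .l)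

def Ti1_0 : Tr := .u01 2 1 (.v01 2 1 (.u01 3 1 (.v01 2 1 .l .l) .l) .l) (.v01 2 1 .l (.u12 2 1 (.v12 3 1 (.u01 1 3 (.v01 1 1 .l .l) (.v01 1 3 .l (.u01 1 3 .l .l))) (.u01 1 1 .l .l)) (.u01 1 1 .l .l)))

def Ti1_1 : Tr := .v12 1 3 (.u12 1 2 (.v01 2 1 (.u01 2 1 (.u01 3 1 (.v01 3 1 .l .l) .l) .l) (.u01 1 1 (.v01 1 1 (.u01 1 1 .l .l) .l) (.v01 1 2 .l .l))) (.v01 2 1 .l .l)) (.u01 2 1 .l (.u12 1 1 .l .l))

def Ti1_2 : Tr := .u01 1 1 (.v01 2 1 (.u01 3 1 (.v01 2 1 .l .l) .l) (.u01 1 1 .l .l)) (.v01 1 2 .l (.u01 1 2 .l .l))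

def Ti1_3 : Tr := .v01 2 3 (.u01 3 2 (.v01 3 1 (.u01 3 1 (.v01 3 1 (.u01 3 1 (.v01 3 1 (.u01 2 1 .l .l) .l) .l) .l) .l) .l) (.v01 2 1 .l .l)) (.u12 1 2 (.u01 1 1 .l .l) .l)

def Ti1_4 : Tr := .u01 2 3 (.v01 3 2 (.u01 3 1 (.v01 3 1 (.u01 3 1 (.v01 3 1 (.u01 3 1 (.u01 2 1 .l .l) .l) .l) .l) .l) .l) (.u01 2 1 .l .l)) (.v12 1 2 (.v01 1 1 .l .l) .l)

def Ti1_5 : Tr := .u12 2 3 (.u01 2 3 (.v01 3 2 (.u01 3 1 (.v01 3 1 (.u01 3 1 (.u01 3 1 (.v01 3 1 (.u01 3 1 .l .l) .l) .l) .l) .l) .l) (.u01 2 1 .l .l)) (.v01 1 1 .l .l)) (.v01 2 1 .l .l)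

def Ti2_0 : Tr := .u01 1 2 (.v01 2 3 (.u02 1 2 (.v02 1 1 .l .l) (.v02 1 2 .l (.u12 1 1 .l .l))) (.u02 1 2 .l (.u12 1 1 .l .l))) (.v01 1 3 (.v02 1 1 .l .l) .l)

def Ti2_1 : Tr := .v01 1 2 (.u01 1 3 (.u02 1 2 (.v02 1 1 .l .l) (.v02 1 1 .l .l)) (.v02 1 1 .l .l)) (.u02 3 2 (.u01 1 1 .l .l) .l)

def Ti2_2 : Tr := .u01 1 2 (.v01 1 2 (.v02 2 3 (.u02 1 1 .l .l) (.u02 1 1 .l .l)) (.u02 1 1 .l .l)) (.v01 1 1 (.v02 1 1 .l .l) .l)

def Ti2_3 : Tr := .v01 1 2 (.v02 2 3 (.u01 1 3 (.u02 1 1 .l .l) .l) (.u01 1 3 (.u02 1 1 .l .l) .l)) (.u01 1 1 (.u02 1 1 .l .l) (.v12 1 1 .l .l))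

def Ti2_4 : Tr := .u01 1 2 (.u02 2 3 (.v01 1 3 (.v02 1 1 .l .l) .l) (.v01 1 3 (.v02 1 1 .l .l) .l)) (.v01 1 1 (.v02 1 1 .l .l) (.u12 1 1 .l .l))

def Ti2_5 : Tr := .v01 1 1 (.v02 2 3 (.u02 1 1 .l .l) (.u02 3 2 (.u01 1 1 .l .l) .l)) (.u02 2 3 (.u01 1 1 .l (.v12 1 1 .l .l)) (.u12 1 2 (.v12 3 2 (.u12 2 1 .l .l) .l) .l))

end PExp

end Vale.Agent.P154
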